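import Vale.Agent.P273.H598.Sol

/-!
# P273, the neck of one node (helper595): the Euler direction

`U = ξ_i0 + x (Re L + M) - (β / π) (Im L - φ) + Re (a · F)` is the potential of the neck. Along the
Euler direction (`M' = 1/2`, `φ' = 0`, `L' = (Re L - log c) / y`, `y = 2 (log c + M)`) the main part
`x (Re L + M)` has the derivative `(Re L + M) (x' + x / y)`, and
`x' + x / y = n' / m + (n / m ^ 2) (mu' - (mu + log c) / y)` where `x = n / m`, `m = M - mu`.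
-/

open Set Metric Filter Complex
open scoped Topology Real

namespace Vale.Agent.P273.H595.Eul

open H598.Sol H598.Sol.Dat

noncomputable section

variable {Q : Type*} [NormedAddCommGroup Q] [NormedSpace ℝ Q] {D : Dat Q} {p₀ : Q}
  {E : Type*} [NormedAddCommGroup E] [NormedSpace ℝ E] {p : E → Q} {M φ : E → ℝ}
  {L : E → ℂ} {F : E → ℂ × ℂ}
  {p' : E →L[ℝ] Q} {M' φ' : E →L[ℝ] ℝ} {L' : E →L[ℝ] ℂ} {F' : E →L[ℝ] ℂ × ℂ} {t : E}
  {h : D.Ok p₀} {A σ s β : ℝ} {ξ : Fin 6 → ℝ}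

/-- numerator of the slope -/
def nm (h : D.Ok p₀) (p : Q) (φ : ℝ) (ξ : Fin 6 → ℝ) : ℝ :=
  ga h p ξ - ξ D.i0 - (ξ D.i1 - ξ D.i0) / π * φ

/-- **the exact derivative of the slope** -/
theorem hasFDerivAt_xs_eq (hb : Bds h A (p t)) (hm : 0 < M t - mu h (p t))
    (dp : HasFDerivAt p p' t) (dM : HasFDerivAt M M' t) (dφ : HasFDerivAt φ φ' t) :
    ∃ x' : E →L[ℝ] ℝ, HasFDerivAt (fun t => xs h (p t) (M t) (φ t) ξ) x' t ∧
      ∀ w, x' w = ((fderiv ℝ (gaL h) (p t) (p' w)) ξ - (ξ D.i1 - ξ D.i0) / π * φ' w) /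
          (M t - mu h (p t)) -
        nm h (p t) (φ t) ξ * (M' w - fderiv ℝ (mu h) (p t) (p' w)) / (M t - mu h (p t)) ^ 2 := by
  have dg : HasFDerivAt (fun t => ga h (p t) ξ)
      (((fderiv ℝ (gaL h) (p t)).comp p').flip ξ) t := by
    have h1 : HasFDerivAt (fun t => gaL h (p t)) ((fderiv ℝ (gaL h) (p t)).comp p') t :=
      hb.g.1.hasFDerivAt.comp t dp
    have h2 := h1.clm_apply (hasFDerivAt_const ξ t)
    refine (h2.congr_fderiv ?_)
    ext w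
    simp
  have dn := (dg.sub_const (ξ D.i0)).sub (dφ.const_mul ((ξ D.i1 - ξ D.i0) / π))
  have dm : HasFDerivAt (fun t => M t - mu h (p t)) (M' - (fderiv ℝ (mu h) (p t)).comp p') t :=
    dM.sub (hb.m.1.hasFDerivAt.comp t dp)
  have di := (hasDerivAt_inv hm.ne').comp_hasFDerivAt t dm
  have dx := dn.mul di
  refine ⟨_, dx.congr_of_eventuallyEq (Eventually.of_forall fun t => ?_), fun w => ?_⟩
  · show xs h (p t) (M t) (φ t) ξ = _
    unfold xs
    rw [div_eq_mul_inv]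
    rfl
  · set m := M t - mu h (p t) with hmdef
    set n1 : ℝ := (fderiv ℝ (gaL h) (p t) (p' w)) ξ - (ξ D.i1 - ξ D.i0) / π * φ' w with hn1
    set m1 : ℝ := M' w - fderiv ℝ (mu h) (p t) (p' w) with hm1
    have e : n1 / m - nm h (p t) (φ t) ξ * m1 / m ^ 2 =
        nm h (p t) (φ t) ξ * (-(m ^ 2)⁻¹ * m1) + m⁻¹ * n1 := by
      rw [div_eq_mul_inv, div_eq_mul_inv]
      ring
    rw [e]
    simp [n1, m1, m, nm]

omit [NormedAddCommGroup E] [NormedSpace ℝ E] in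
/-- bound of the numerator -/
theorem nm_le (hs : Sz ξ h A σ s β (p t)) (hφ : |φ t| ≤ 6) :
    |nm h (p t) (φ t) ξ| ≤ A * σ + s + 2 * β := by
  have hβ : 0 ≤ β := (abs_nonneg _).trans hs.b
  have h1 : |ga h (p t) ξ| ≤ A * σ := hs.g
  have h2 := hs.s
  have h3 : |(ξ D.i1 - ξ D.i0) / π * φ t| ≤ 2 * β := by
    rw [abs_mul, abs_div, abs_of_pos Real.pi_pos, div_mul_eq_mul_div,
      div_le_iff₀ Real.pi_pos]
    have h4 : |ξ D.i1 - ξ D.i0| * |φ t| ≤ β * 6 :=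
      mul_le_mul hs.b hφ (abs_nonneg _) hβ
    nlinarith [Real.pi_gt_three]
  have h5 := abs_sub (ga h (p t) ξ - ξ D.i0) ((ξ D.i1 - ξ D.i0) / π * φ t)
  have h6 := abs_sub (ga h (p t) ξ) (ξ D.i0)
  unfold nm
  linarith

/-- **the cancellation on the Euler direction** -/
theorem euler_xs {x x1 n n1 m mu1 muv lc y M1 : ℝ} (hm : m ≠ 0) (hy : y ≠ 0)
    (hx : x = n / m) (hx1 : x1 = n1 / m - n * (1 / 2 - mu1) / m ^ 2)
    (hyM : y = 2 * (lc + M1)) (hmM : m = M1 - muv) :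
    x1 + x / y = n1 / m + n / m ^ 2 * (mu1 - (muv + lc) / y) := by
  have e : m = y / 2 - (muv + lc) := by rw [hyM, hmM]; ring
  have e2 : x / y = n / m ^ 2 * (m / y) := by
    rw [hx]
    field_simp
  have e3 : m / y = 1 / 2 - (muv + lc) / y := by
    rw [e]
    field_simp
  rw [e2, hx1, e3]
  ring

/-- derivative of `Re (a · F)` -/
theorem hasFDerivAt_dot {V : E → ℂ × ℂ × ℝ} {V' : E →L[ℝ] ℂ × ℂ × ℝ} (dV : HasFDerivAt V V' t)
    (dF : HasFDerivAt F F' t) :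
    ∃ W : E →L[ℝ] ℝ, HasFDerivAt (fun t => (dot (V t) (F t)).re) W t ∧
      ∀ w, |W w| ≤ 2 * ‖V' w‖ * ‖F t‖ + 2 * ‖V t‖ * ‖F' w‖ := by
  have h1 := (dV.fst.mul dF.fst).add (dV.snd.fst.mul dF.snd)
  have h2 := (reCLM.hasFDerivAt (x := (V t).1 * (F t).1 + (V t).2.1 * (F t).2)).comp t h1
  refine ⟨_, h2, fun w => ?_⟩
  have k1 : ∀ z : ℂ, z = (V t).1 * (F' w).1 + (V' w).1 * (F t).1 +
      ((V t).2.1 * (F' w).2 + (V' w).2.1 * (F t).2) →
      |z.re| ≤ 2 * ‖V' w‖ * ‖F t‖ + 2 * ‖V t‖ * ‖F' w‖ := by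
    rintro z rfl
    refine (abs_re_le_norm _).trans ?_
    have a1 : ‖(V t).1‖ ≤ ‖V t‖ := norm_fst_le _
    have a2 : ‖(V t).2.1‖ ≤ ‖V t‖ := (norm_fst_le _).trans (norm_snd_le _)
    have a3 : ‖(V' w).1‖ ≤ ‖V' w‖ := norm_fst_le _
    have a4 : ‖(V' w).2.1‖ ≤ ‖V' w‖ := (norm_fst_le _).trans (norm_snd_le _)
    have b1 : ‖(F t).1‖ ≤ ‖F t‖ := norm_fst_le _
    have b2 : ‖(F t).2‖ ≤ ‖F t‖ := norm_snd_le _
    have b3 : ‖(F' w).1‖ ≤ ‖F' w‖ := norm_fst_le _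
    have b4 : ‖(F' w).2‖ ≤ ‖F' w‖ := norm_snd_le _
    have c1 : ‖(V t).1 * (F' w).1‖ ≤ ‖V t‖ * ‖F' w‖ := by
      rw [norm_mul]; exact mul_le_mul a1 b3 (norm_nonneg _) (norm_nonneg _)
    have c2 : ‖(V' w).1 * (F t).1‖ ≤ ‖V' w‖ * ‖F t‖ := by
      rw [norm_mul]; exact mul_le_mul a3 b1 (norm_nonneg _) (norm_nonneg _)
    have c3 : ‖(V t).2.1 * (F' w).2‖ ≤ ‖V t‖ * ‖F' w‖ := by
      rw [norm_mul]; exact mul_le_mul a2 b4 (norm_nonneg _) (norm_nonneg _)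
    have c4 : ‖(V' w).2.1 * (F t).2‖ ≤ ‖V' w‖ * ‖F t‖ := by
      rw [norm_mul]; exact mul_le_mul a4 b2 (norm_nonneg _) (norm_nonneg _)
    have d1 := norm_add_le ((V t).1 * (F' w).1 + (V' w).1 * (F t).1)
      ((V t).2.1 * (F' w).2 + (V' w).2.1 * (F t).2)
    have d2 := norm_add_le ((V t).1 * (F' w).1) ((V' w).1 * (F t).1)
    have d3 := norm_add_le ((V t).2.1 * (F' w).2) ((V' w).2.1 * (F t).2)
    linarith
  refine (le_of_eq ?_).trans (k1 _ rfl)
  congr 1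
  simp
  ring

/-! ### the potential -/

/-- the main part on the Euler direction -/
theorem main_le {R x1 x y n1 nm m mu1 muv lc M1 A K N r : ℝ} (hA : 1 ≤ A) (hM : 2 * A ≤ M1)
    (hr : 0 ≤ r) (hm : m = M1 - muv) (hy : 0 < y) (hyM : y = 2 * (lc + M1)) (hmu : |muv| ≤ A)
    (hx : x = nm / m) (hx1 : x1 = n1 / m - nm * (1 / 2 - mu1) / m ^ 2) (hn : |nm| ≤ K)
    (b1 : |n1| ≤ N) (b2 : |mu1| ≤ A * r) (hR : |R| ≤ y / 2) :
    |R * (x1 + x / y)| ≤ y * N / M1 + 4 * K / M1 ^ 2 * (y * A * r + (A + |lc|)) := by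
  have hM0 : 0 < M1 := by linarith
  have hmu' := abs_le.1 hmu
  have hden : M1 / 2 ≤ m := by linarith [hmu'.2]
  have hden0 : 0 < m := by linarith
  have hK : 0 ≤ K := (abs_nonneg _).trans hn
  have hN : 0 ≤ N := (abs_nonneg _).trans b1
  have c1 : m⁻¹ ≤ 2 / M1 := by
    rw [inv_le_comm₀ hden0 (by positivity), inv_div]
    exact hden
  have c0 : 0 < m⁻¹ := inv_pos.2 hden0
  have c2 : (m ^ 2)⁻¹ ≤ 4 / M1 ^ 2 := by
    rw [← inv_pow]
    have : (2 / M1) ^ 2 = 4 / M1 ^ 2 := by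
      rw [div_pow]; norm_num
    rw [← this]
    exact pow_le_pow_left₀ c0.le c1 2
  have e3 : x1 + x / y = n1 / m + nm / m ^ 2 * (mu1 - (muv + lc) / y) :=
    euler_xs (M1 := M1) (lc := lc) (muv := muv) hden0.ne' hy.ne' hx hx1 hyM hm
  rw [e3, mul_add]
  have q1 : |R * (n1 / m)| ≤ y * N / M1 := by
    rw [abs_mul, abs_div, abs_of_pos hden0, div_eq_mul_inv]
    calc |R| * (|n1| * m⁻¹) ≤ y / 2 * (N * (2 / M1)) :=
          mul_le_mul hR (mul_le_mul b1 c1 c0.le hN) (by positivity) (by positivity)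
      _ = _ := by ring
  have q2 : |R * (nm / m ^ 2 * (mu1 - (muv + lc) / y))| ≤
      4 * K / M1 ^ 2 * (y * A * r + (A + |lc|)) := by
    have e5 : R * (nm / m ^ 2 * (mu1 - (muv + lc) / y)) =
        nm * (m ^ 2)⁻¹ * (R * mu1 - R / y * (muv + lc)) := by
      field_simp
    rw [e5, abs_mul, abs_mul, abs_of_pos (show 0 < (m ^ 2)⁻¹ by positivity)]
    have q3 : |R * mu1 - R / y * (muv + lc)| ≤ y * A * r + (A + |lc|) := by
      have r1 : |R * mu1| ≤ y * A * r := by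
        rw [abs_mul]
        calc |R| * |mu1| ≤ y / 2 * (A * r) :=
              mul_le_mul hR b2 (abs_nonneg _) (by positivity)
          _ ≤ _ := by nlinarith [mul_nonneg (mul_nonneg hy.le (by linarith : 0 ≤ A)) hr]
      have r2 : |R / y * (muv + lc)| ≤ A + |lc| := by
        rw [abs_mul, abs_div, abs_of_pos hy]
        have s1 : |R| / y ≤ 1 := by
          rw [div_le_one hy]
          linarith
        have s2 : |muv + lc| ≤ A + |lc| :=
          (abs_add_le _ _).trans (add_le_add hmu le_rfl)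
        calc |R| / y * |muv + lc| ≤ 1 * (A + |lc|) :=
              mul_le_mul s1 s2 (abs_nonneg _) zero_le_one
          _ = _ := one_mul _
      have := abs_sub (R * mu1) (R / y * (muv + lc))
      linarith
    calc |nm| * (m ^ 2)⁻¹ * |R * mu1 - R / y * (muv + lc)| ≤
          K * (4 / M1 ^ 2) * (y * A * r + (A + |lc|)) :=
          mul_le_mul (mul_le_mul hn c2 (by positivity) hK) q3 (abs_nonneg _) (by positivity)
      _ = _ := by ring
  have := abs_add_le (R * (n1 / m)) (R * (nm / m ^ 2 * (mu1 - (muv + lc) / y)))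
  linarith

/-- **the potential of the neck** -/
def pot (h : D.Ok p₀) (p : E → Q) (M φ : E → ℝ) (L : E → ℂ) (F : E → ℂ × ℂ) (ξ : Fin 6 → ℝ)
    (t : E) : ℝ :=
  ξ D.i0 + xs h (p t) (M t) (φ t) ξ * ((L t).re + M t) -
    (ξ D.i1 - ξ D.i0) / π * ((L t).im - φ t) + (dot (vs h (p t) (M t) (φ t) ξ) (F t)).re

/-- the derivative of the potential -/
theorem hasFDerivAt_pot {x' : E →L[ℝ] ℝ} {W : E →L[ℝ] ℝ}
    (dx : HasFDerivAt (fun t => xs h (p t) (M t) (φ t) ξ) x' t)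
    (dW : HasFDerivAt (fun t => (dot (vs h (p t) (M t) (φ t) ξ) (F t)).re) W t)
    (dM : HasFDerivAt M M' t) (dφ : HasFDerivAt φ φ' t) (dL : HasFDerivAt L L' t) :
    ∃ U' : E →L[ℝ] ℝ, HasFDerivAt (pot h p M φ L F ξ) U' t ∧ ∀ w,
      U' w = (xs h (p t) (M t) (φ t) ξ * ((L' w).re + M' w) + ((L t).re + M t) * x' w) -
        (ξ D.i1 - ξ D.i0) / π * ((L' w).im - φ' w) + W w := by
  have dLr : HasFDerivAt (fun t => (L t).re) (reCLM.comp L') t := reCLM.hasFDerivAt.comp t dL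
  have dLi : HasFDerivAt (fun t => (L t).im) (imCLM.comp L') t := imCLM.hasFDerivAt.comp t dL
  have d1 := dx.mul (dLr.add dM)
  have d2 := (dLi.sub dφ).const_mul ((ξ D.i1 - ξ D.i0) / π)
  refine ⟨_, ((d1.const_add (ξ D.i0)).sub d2).add dW, fun w => ?_⟩
  rfl

/-- **the derivative of the potential along the Euler direction** -/
theorem eul_gen (hb : Bds h A (p t)) (hs : Sz ξ h A σ s β (p t)) (hM : 2 * A ≤ M t)
    (hφ : |φ t| ≤ 6) (dp : HasFDerivAt p p' t) (dM : HasFDerivAt M M' t)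
    (dφ : HasFDerivAt φ φ' t) (dL : HasFDerivAt L L' t) (dF : HasFDerivAt F F' t) {w : E}
    {lc CF r y K : ℝ} (hy : 0 < y) (hyM : y = 2 * (lc + M t)) (hKe : K = A * σ + s + 2 * β)
    (hLM : |(L t).re + M t| ≤ y / 2) (hp' : ‖p' w‖ ≤ r) (hM' : M' w = 1 / 2)
    (hφ' : φ' w = 0) (hL' : L' w = ((y⁻¹ * ((L t).re - lc) : ℝ) : ℂ))
    (hF : ‖F t‖ ≤ CF) (hF' : ‖F' w‖ ≤ CF * y⁻¹) :
    ∃ U' : E →L[ℝ] ℝ, HasFDerivAt (pot h p M φ L F ξ) U' t ∧
      |U' w| ≤ y * (A * σ * r) / M t + 4 * K / (M t) ^ 2 * (y * A * r + (A + |lc|)) +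
        (2 * (A * σ * r + A * (2 * K / M t) * r +
          A * (2 * (A * σ * r) / M t + 4 * K * (1 / 2 + A * r) / (M t) ^ 2)) * CF +
        2 * (A * σ + A * (2 * K / M t)) * (CF * y⁻¹)) := by
  have hA := hb.A1
  have hM0 : 0 < M t := by linarith
  have hmu : |mu h (p t)| ≤ A := hb.m.2.1
  have hden0 : 0 < M t - mu h (p t) := by linarith [(abs_le.1 hmu).2]
  have hr0 : 0 ≤ r := (norm_nonneg _).trans hp'
  have hCF : 0 ≤ CF := (norm_nonneg _).trans hF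
  have b3 : |nm h (p t) (φ t) ξ| ≤ K := hKe ▸ nm_le hs hφ
  have hK : 0 ≤ K := (abs_nonneg _).trans b3
  have hσ : 0 ≤ A * σ := (norm_nonneg _).trans hs.G
  obtain ⟨x', dx, hx'⟩ := hasFDerivAt_xs_eq (ξ := ξ) hb hden0 dp dM dφ
  obtain ⟨hv, v', dv, hv'⟩ := hasFDerivAt_vs hb hs hM hφ dp dM dφ
  obtain ⟨W, dW, hW⟩ := hasFDerivAt_dot dv dF
  obtain ⟨U', dU, hU⟩ := hasFDerivAt_pot dx dW dM dφ dL
  refine ⟨U', dU, ?_⟩
  have e1 : (L' w).re + M' w = ((L t).re + M t) / y := by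
    rw [hL', ofReal_re, hM', inv_mul_eq_div, eq_div_iff hy.ne', add_mul,
      div_mul_cancel₀ _ hy.ne', hyM]
    ring
  have e2 : (L' w).im - φ' w = 0 := by
    rw [hL', ofReal_im, hφ', sub_zero]
  have k1 := main_le (R := (L t).re + M t) (x1 := x' w) (lc := lc) (K := K) (N := A * σ * r) (r := r)
    (n1 := (fderiv ℝ (gaL h) (p t) (p' w)) ξ) (mu1 := fderiv ℝ (mu h) (p t) (p' w))
    hA hM hr0 (rfl : M t - mu h (p t) = _) hy hyM hmu
    (rfl : xs h (p t) (M t) (φ t) ξ = nm h (p t) (φ t) ξ / (M t - mu h (p t)))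
    (by rw [hx' w, hφ', mul_zero, sub_zero, hM']; rfl) b3
    ((hs.g' (p' w)).trans (mul_le_mul_of_nonneg_left hp' hσ))
    (by
      have h1 := (ContinuousLinearMap.le_opNorm (fderiv ℝ (mu h) (p t)) (p' w)).trans
        (mul_le_mul hb.m.2.2 hp' (norm_nonneg _) (by linarith))
      rwa [Real.norm_eq_abs] at h1) hLM
  have q1 : ‖v' w‖ ≤ A * σ * r + A * (2 * K / M t) * r +
        A * (2 * (A * σ * r) / M t + 4 * K * (1 / 2 + A * r) / (M t) ^ 2) := by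
    refine (hv' w).trans ?_
    rw [hφ', hM', abs_zero, mul_zero, add_zero, abs_of_pos (by norm_num : (0:ℝ) < 1 / 2), ← hKe]
    have hA0 : 0 ≤ A := by linarith
    gcongr
  rw [← hKe] at hv
  have k2 : |W w| ≤ 2 * (A * σ * r + A * (2 * K / M t) * r +
          A * (2 * (A * σ * r) / M t + 4 * K * (1 / 2 + A * r) / (M t) ^ 2)) * CF +
        2 * (A * σ + A * (2 * K / M t)) * (CF * y⁻¹) := by
    refine (hW w).trans (add_le_add ?_ ?_)
    · exact mul_le_mul (mul_le_mul_of_nonneg_left q1 zero_le_two) hF (norm_nonneg _)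
        (by have := (norm_nonneg _).trans q1; linarith)
    · exact mul_le_mul (mul_le_mul_of_nonneg_left hv zero_le_two) hF' (norm_nonneg _)
        (by have := (norm_nonneg _).trans hv; linarith)
  have e6 : U' w = ((L t).re + M t) * (x' w + xs h (p t) (M t) (φ t) ξ / y) + W w := by
    rw [hU, e2, e1]
    ring
  rw [e6]
  exact (abs_add_le _ _).trans (add_le_add k1 k2)

/-- the constant -/
def BE (A CF lc : ℝ) : ℝ := 4 * A + 96 * A * (3 * A + |lc|) +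
  2 * CF * (3 * A + 8 * A ^ 2 + 6 * A * (20 * A + 32 * A ^ 2))

theorem BE_pos {A CF lc : ℝ} (hA : 1 ≤ A) (hCF : 0 ≤ CF) : 0 < BE A CF lc := by
  have : 0 < A := by linarith
  unfold BE
  positivity

/-- arithmetic of the bound -/
theorem eul_real {A σ K y M1 r CF lc : ℝ} (hA : 1 ≤ A) (hσ : 0 ≤ σ) (hK : 0 ≤ K) (hCF : 0 ≤ CF)
    (hy : 0 < y) (hM : y / 2 ≤ M1) (hr : 0 ≤ r) (hry : r ≤ 2 / y) :
    y * (A * σ * r) / M1 + 4 * K / M1 ^ 2 * (y * A * r + (A + |lc|)) +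
        (2 * (A * σ * r + A * (2 * K / M1) * r +
          A * (2 * (A * σ * r) / M1 + 4 * K * (1 / 2 + A * r) / M1 ^ 2)) * CF +
        2 * (A * σ + A * (2 * K / M1)) * (CF * y⁻¹)) ≤
      σ * (4 * A + 2 * CF * (3 * A + 8 * A ^ 2 / y)) / y +
        K * (16 * (3 * A + |lc|) + 2 * CF * (12 * A + 16 * A * (1 / 2 + 2 * A / y))) / y ^ 2 := by
  have hM0 : 0 < M1 := by linarith
  have hA0 : 0 < A := by linarith
  have c1 : 1 / M1 ≤ 2 / y := by
    rw [div_le_div_iff₀ hM0 hy]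
    linarith
  have c2 : 1 / M1 ^ 2 ≤ 4 / y ^ 2 := by
    have : (1 / M1) ^ 2 ≤ (2 / y) ^ 2 := pow_le_pow_left₀ (by positivity) c1 2
    rw [div_pow, div_pow, one_pow] at this
    refine this.trans (le_of_eq ?_)
    norm_num
  have hyr : y * r ≤ 2 := by
    have := mul_le_mul_of_nonneg_left hry hy.le
    rwa [mul_div_cancel₀ _ hy.ne'] at this
  have t1 : y * (A * σ * r) / M1 ≤ A * σ * 4 / y := by
    calc y * (A * σ * r) / M1 = A * σ * (y * r) * (1 / M1) := by ring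
      _ ≤ A * σ * 2 * (2 / y) :=
        mul_le_mul (mul_le_mul_of_nonneg_left hyr (by positivity)) c1 (by positivity)
          (by positivity)
      _ = _ := by ring
  have t2 : 4 * K / M1 ^ 2 * (y * A * r + (A + |lc|)) ≤ K * (16 * (3 * A + |lc|)) / y ^ 2 := by
    calc 4 * K / M1 ^ 2 * (y * A * r + (A + |lc|)) =
          4 * K * (1 / M1 ^ 2) * (A * (y * r) + (A + |lc|)) := by ring
      _ ≤ 4 * K * (4 / y ^ 2) * (A * 2 + (A + |lc|)) :=
        mul_le_mul (mul_le_mul_of_nonneg_left c2 (by positivity))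
          (add_le_add (mul_le_mul_of_nonneg_left hyr hA0.le) le_rfl) (by positivity)
          (by positivity)
      _ = _ := by ring
  have t3 : 2 * (A * σ * r + A * (2 * K / M1) * r +
          A * (2 * (A * σ * r) / M1 + 4 * K * (1 / 2 + A * r) / M1 ^ 2)) * CF ≤
      σ * (2 * CF * (2 * A + 8 * A ^ 2 / y)) / y +
        K * (2 * CF * (8 * A + 16 * A * (1 / 2 + 2 * A / y))) / y ^ 2 := by
    have u1 : A * σ * r ≤ A * σ * (2 / y) := mul_le_mul_of_nonneg_left hry (by positivity)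
    have u2 : A * (2 * K / M1) * r ≤ A * (2 * K * (2 / y)) * (2 / y) := by
      have : 2 * K / M1 ≤ 2 * K * (2 / y) := by
        rw [div_eq_mul_one_div]
        exact mul_le_mul_of_nonneg_left c1 (by positivity)
      exact mul_le_mul (mul_le_mul_of_nonneg_left this hA0.le) hry hr (by positivity)
    have u3 : 2 * (A * σ * r) / M1 ≤ 2 * (A * σ * (2 / y)) * (2 / y) := by
      rw [div_eq_mul_one_div]
      exact mul_le_mul (mul_le_mul_of_nonneg_left u1 zero_le_two) c1 (by positivity)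
        (by positivity)
    have u4 : 4 * K * (1 / 2 + A * r) / M1 ^ 2 ≤ 4 * K * (1 / 2 + A * (2 / y)) * (4 / y ^ 2) := by
      rw [div_eq_mul_one_div]
      refine mul_le_mul (mul_le_mul_of_nonneg_left ?_ (by positivity)) c2 (by positivity)
        (by positivity)
      exact add_le_add le_rfl (mul_le_mul_of_nonneg_left hry hA0.le)
    have u5 : A * (2 * (A * σ * r) / M1 + 4 * K * (1 / 2 + A * r) / M1 ^ 2) ≤
        A * (2 * (A * σ * (2 / y)) * (2 / y) + 4 * K * (1 / 2 + A * (2 / y)) * (4 / y ^ 2)) :=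
      mul_le_mul_of_nonneg_left (add_le_add u3 u4) hA0.le
    have u6 : 2 * (A * σ * r + A * (2 * K / M1) * r +
          A * (2 * (A * σ * r) / M1 + 4 * K * (1 / 2 + A * r) / M1 ^ 2)) * CF ≤
        2 * (A * σ * (2 / y) + A * (2 * K * (2 / y)) * (2 / y) +
          A * (2 * (A * σ * (2 / y)) * (2 / y) + 4 * K * (1 / 2 + A * (2 / y)) * (4 / y ^ 2))) *
          CF :=
      mul_le_mul_of_nonneg_right (by linarith) hCF
    refine u6.trans (le_of_eq ?_)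
    field_simp
    ring
  have t4 : 2 * (A * σ + A * (2 * K / M1)) * (CF * y⁻¹) ≤
      σ * (2 * CF * A) / y + K * (2 * CF * (4 * A)) / y ^ 2 := by
    have : 2 * K / M1 ≤ 2 * K * (2 / y) := by
      rw [div_eq_mul_one_div]
      exact mul_le_mul_of_nonneg_left c1 (by positivity)
    have u1 : 2 * (A * σ + A * (2 * K / M1)) * (CF * y⁻¹) ≤
        2 * (A * σ + A * (2 * K * (2 / y))) * (CF * y⁻¹) := by
      refine mul_le_mul_of_nonneg_right ?_ (by positivity)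
      have := mul_le_mul_of_nonneg_left this hA0.le
      linarith
    refine u1.trans (le_of_eq ?_)
    field_simp
    ring
  have e : σ * (4 * A + 2 * CF * (3 * A + 8 * A ^ 2 / y)) / y +
        K * (16 * (3 * A + |lc|) + 2 * CF * (12 * A + 16 * A * (1 / 2 + 2 * A / y))) / y ^ 2 =
      A * σ * 4 / y + K * (16 * (3 * A + |lc|)) / y ^ 2 +
      (σ * (2 * CF * (2 * A + 8 * A ^ 2 / y)) / y +
        K * (2 * CF * (8 * A + 16 * A * (1 / 2 + 2 * A / y))) / y ^ 2 +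
      (σ * (2 * CF * A) / y + K * (2 * CF * (4 * A)) / y ^ 2)) := by ring
  rw [e]
  linarith

/-- `c exp (-y / 2)` is small -/
theorem exp_small {c y : ℝ} (_ : 0 < c) (hc1 : c ≤ 1) (hy : 0 < y) :
    c * Real.exp (-y / 2) ≤ 2 / y := by
  have h1 : y / 2 + 1 ≤ Real.exp (y / 2) := Real.add_one_le_exp _
  have h2 : Real.exp (-y / 2) = (Real.exp (y / 2))⁻¹ := by
    rw [← Real.exp_neg]
    congr 1
    ring
  have h3 : Real.exp (-y / 2) ≤ 2 / y := by
    rw [h2, inv_le_comm₀ (Real.exp_pos _) (by positivity), inv_div]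
    linarith
  calc c * Real.exp (-y / 2) ≤ 1 * Real.exp (-y / 2) :=
        mul_le_mul_of_nonneg_right hc1 (Real.exp_pos _).le
    _ = Real.exp (-y / 2) := one_mul _
    _ ≤ _ := h3

/-- `x |log (x / c)| ≤ c` -/
theorem mul_log_le {x c y : ℝ} (hx : 0 < x) (hxc : x ≤ c) (hy : 0 < y) :
    x * |y⁻¹ * Real.log (x / c)| ≤ c * y⁻¹ := by
  have hc : 0 < c := hx.trans_le hxc
  have h1 : Real.log (x / c) ≤ 0 := Real.log_nonpos (by positivity) ((div_le_one hc).2 hxc)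
  have h2 : -Real.log (x / c) ≤ c / x := by
    have := Real.log_le_sub_one_of_pos (show 0 < c / x by positivity)
    rw [← Real.log_inv, inv_div]
    linarith
  rw [abs_mul, abs_of_pos (inv_pos.2 hy), abs_of_nonpos h1]
  have h3 : x * -Real.log (x / c) ≤ c := by
    calc x * -Real.log (x / c) ≤ x * (c / x) := mul_le_mul_of_nonneg_left h2 hx.le
      _ = c := by field_simp
  calc x * (y⁻¹ * -Real.log (x / c)) = x * -Real.log (x / c) * y⁻¹ := by ring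
    _ ≤ c * y⁻¹ := mul_le_mul_of_nonneg_right h3 (inv_pos.2 hy).le

/-- **the Euler direction, every class**: `|U'| ≤ B ‖ξ‖ / y` -/
theorem est_E0 (hb : Bds h A (p t)) (hM : 2 * A ≤ M t)
    (hφ : |φ t| ≤ 6) (dp : HasFDerivAt p p' t) (dM : HasFDerivAt M M' t)
    (dφ : HasFDerivAt φ φ' t) (dL : HasFDerivAt L L' t) (dF : HasFDerivAt F F' t) {w : E}
    {c CF y : ℝ} (hc : 0 < c) (hc1 : c ≤ 1) (hy : 1 ≤ y) (hyM : y = 2 * (Real.log c + M t))
    (hLM : |(L t).re + M t| ≤ y / 2) (hp' : ‖p' w‖ ≤ c * Real.exp (-y / 2)) (hM' : M' w = 1 / 2)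
    (hφ' : φ' w = 0) (hL' : L' w = ((y⁻¹ * ((L t).re - Real.log c) : ℝ) : ℂ))
    (hF : ‖F t‖ ≤ CF) (hF' : ‖F' w‖ ≤ CF * y⁻¹) :
    ∃ U' : E →L[ℝ] ℝ, HasFDerivAt (pot h p M φ L F ξ) U' t ∧
      |U' w| ≤ BE A CF (Real.log c) * ‖ξ‖ * y⁻¹ := by
  have hA := hb.A1
  have hA0 : 0 < A := by linarith
  have hy0 : 0 < y := by linarith
  have hCF : 0 ≤ CF := (norm_nonneg _).trans hF
  have hlc : Real.log c ≤ 0 := Real.log_nonpos hc.le hc1
  obtain ⟨U', dU, hU⟩ := eul_gen hb (hb.sz ξ) hM hφ dp dM dφ dL dF hy0 hyM rfl hLM hp' hM' hφ'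
    hL' hF hF'
  refine ⟨U', dU, hU.trans ?_⟩
  set K := A * ‖ξ‖ + ‖ξ‖ + 2 * |ξ D.i1 - ξ D.i0| with hK
  have hβ : |ξ D.i1 - ξ D.i0| ≤ 2 * ‖ξ‖ := by
    have h1 : |ξ D.i1| ≤ ‖ξ‖ := norm_le_pi_norm ξ _
    have h2 : |ξ D.i0| ≤ ‖ξ‖ := norm_le_pi_norm ξ _
    have := abs_sub (ξ D.i1) (ξ D.i0)
    linarith
  have hK0 : 0 ≤ K := by positivity
  have hK6 : K ≤ 6 * A * ‖ξ‖ := by
    have := mul_nonneg (by linarith : 0 ≤ A - 1) (norm_nonneg ξ)
    nlinarith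
  refine (eul_real hA (norm_nonneg ξ) hK0 hCF hy0 (by rw [hyM]; linarith) (by positivity)
    (exp_small hc hc1 hy0)).trans ?_
  have s1 : ‖ξ‖ * (4 * A + 2 * CF * (3 * A + 8 * A ^ 2 / y)) / y ≤
      ‖ξ‖ * (4 * A + 2 * CF * (3 * A + 8 * A ^ 2)) * y⁻¹ := by
    rw [div_eq_mul_inv]
    refine mul_le_mul_of_nonneg_right (mul_le_mul_of_nonneg_left ?_ (norm_nonneg _))
      (inv_pos.2 hy0).le
    have : 8 * A ^ 2 / y ≤ 8 * A ^ 2 := div_le_self (by positivity) hy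
    have := mul_le_mul_of_nonneg_left this (by positivity : 0 ≤ 2 * CF)
    linarith
  have s2 : K * (16 * (3 * A + |Real.log c|) +
      2 * CF * (12 * A + 16 * A * (1 / 2 + 2 * A / y))) / y ^ 2 ≤
      6 * A * ‖ξ‖ * (16 * (3 * A + |Real.log c|) + 2 * CF * (20 * A + 32 * A ^ 2)) * y⁻¹ := by
    have u1 : 2 * A / y ≤ 2 * A := div_le_self (by positivity) hy
    have u2 : (1 : ℝ) / y ^ 2 ≤ y⁻¹ := by
      rw [one_div]
      exact inv_anti₀ hy0 (by nlinarith)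
    have u3 : 2 * CF * (12 * A + 16 * A * (1 / 2 + 2 * A / y)) ≤
        2 * CF * (20 * A + 32 * A ^ 2) := by
      refine mul_le_mul_of_nonneg_left ?_ (by positivity)
      have := mul_le_mul_of_nonneg_left u1 (by positivity : 0 ≤ 16 * A)
      nlinarith
    rw [div_eq_mul_one_div]
    refine mul_le_mul (mul_le_mul hK6 (by linarith) (by positivity) (by positivity)) u2
      (by positivity) (by positivity)
  refine (add_le_add s1 s2).trans (le_of_eq ?_)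
  unfold BE
  ring

/-- **the Euler direction, class of the pair**: `|U'| ≤ B / y ^ 2` -/
theorem est_E2 (hb : Bds h A (p t)) (h0 : ξ D.i0 = 1) (h1 : ξ D.i1 = 1)
    (h2 : ∀ j, j ≠ D.i0 → j ≠ D.i1 → ξ j = 0) (hM : 2 * A ≤ M t)
    (hφ : |φ t| ≤ 6) (dp : HasFDerivAt p p' t) (dM : HasFDerivAt M M' t)
    (dφ : HasFDerivAt φ φ' t) (dL : HasFDerivAt L L' t) (dF : HasFDerivAt F F' t) {w : E}
    {c CF y : ℝ} (hc : 0 < c) (hc1 : c ≤ 1) (hy : 1 ≤ y) (hyM : y = 2 * (Real.log c + M t))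
    (hLM : |(L t).re + M t| ≤ y / 2) (hp' : ‖p' w‖ ≤ c * Real.exp (-y / 2)) (hM' : M' w = 1 / 2)
    (hφ' : φ' w = 0) (hL' : L' w = ((y⁻¹ * ((L t).re - Real.log c) : ℝ) : ℂ))
    (hF : ‖F t‖ ≤ CF) (hF' : ‖F' w‖ ≤ CF * y⁻¹) :
    ∃ U' : E →L[ℝ] ℝ, HasFDerivAt (pot h p M φ L F ξ) U' t ∧
      |U' w| ≤ BE A CF (Real.log c) * (y⁻¹) ^ 2 := by
  have hA := hb.A1
  have hA0 : 0 < A := by linarith
  have hy0 : 0 < y := by linarith
  have hCF : 0 ≤ CF := (norm_nonneg _).trans hF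
  have hlc : Real.log c ≤ 0 := Real.log_nonpos hc.le hc1
  obtain ⟨U', dU, hU⟩ := eul_gen (K := 1) hb (hb.sz_alc h0 h1 h2) hM hφ dp dM dφ dL dF hy0 hyM
    (by ring) hLM hp' hM' hφ' hL' hF hF'
  refine ⟨U', dU, hU.trans ?_⟩
  refine (eul_real hA le_rfl zero_le_one hCF hy0 (by rw [hyM]; linarith) (by positivity)
    (exp_small hc hc1 hy0)).trans ?_
  rw [zero_mul, zero_div, zero_add, one_mul]
  have u1 : 2 * A / y ≤ 2 * A := div_le_self (by positivity) hy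
  have u3 : 2 * CF * (12 * A + 16 * A * (1 / 2 + 2 * A / y)) ≤
      2 * CF * (20 * A + 32 * A ^ 2) := by
    refine mul_le_mul_of_nonneg_left ?_ (by positivity)
    have := mul_le_mul_of_nonneg_left u1 (by positivity : 0 ≤ 16 * A)
    nlinarith
  rw [div_eq_mul_inv, ← inv_pow]
  refine mul_le_mul_of_nonneg_right ?_ (by positivity)
  have u4 : 16 * (3 * A + |Real.log c|) ≤ 96 * A * (3 * A + |Real.log c|) :=
    mul_le_mul_of_nonneg_right (by linarith) (by positivity)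
  have u5 : 20 * A + 32 * A ^ 2 ≤ 3 * A + 8 * A ^ 2 + 6 * A * (20 * A + 32 * A ^ 2) := by
    have : 0 ≤ (6 * A - 1) * (20 * A + 32 * A ^ 2) :=
      mul_nonneg (by linarith) (by positivity)
    nlinarith [sq_nonneg A]
  have u6 := mul_le_mul_of_nonneg_left u5 (by positivity : 0 ≤ 2 * CF)
  unfold BE
  linarith

end

end Vale.Agent.P273.H595.Eul
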