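import Vale.Agent.P273.H857.Stm

/-!
The rows GP-* on the natural open sets (598's request): no injectivity of `b`, only simple start.
Each `StmXXn` implies 857's `StmXX`.
-/

open Complex Set Filter Topology MeasureTheory
open scoped ContDiff

namespace Vale.Agent.P273.H595

open H857

noncomputable section

/-- at most one label sits at the starting point -/
def SR (b : C6) (x : ℂ) : Prop := ∀ l m, b l = x → b m = x → l = m

theorem SR.of_ne {b : C6} {x : ℂ} (h : ∀ l, b l ≠ x) : SR b x := fun l _ hl _ => absurd hl (h l)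

theorem SR.of_root {b : C6} {j : Fin 6} (h : ∀ l, l ≠ j → b l ≠ b j) : SR b (b j) := by
  intro l m hl hm
  have h1 : l = j := by_contra fun h' => h l h' hl
  have h2 : m = j := by_contra fun h' => h m h' hm
  rw [h1, h2]

theorem SR.of_inj {b : C6} (h : Function.Injective b) (x : ℂ) : SR b x := fun _ _ hl hm =>
  h (hl.trans hm.symm)

/-- GP-INV on the natural set -/
def StmINVn : Prop := ∀ (k : ℕ) (B : Finset (Fin 6)) (b : C6) (x : ℂ), k ≤ 1 → SR b x →
  (∀ g, Adm B b x g → IntegrableOn (igd k B b x g) (Ioi 0)) ∧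
    ∀ g₀ g₁, Adm B b x g₀ → Adm B b x g₁ → PG k B b x g₀ = PG k B b x g₁

/-- GP-HOL on the natural set -/
def StmHOLn : Prop := ∀ (k : ℕ) (B : Finset (Fin 6)) (b₀ : C6) (x₀ : ℂ), k ≤ 1 →
  (∀ l, b₀ l ≠ x₀) → OK B b₀ x₀ →
    AnalyticAt ℂ (fun p : C6 × ℂ => P k B p.1 p.2) (b₀, x₀) ∧
      HasDerivAt (P k B b₀) (x₀ ^ k / sq B b₀ x₀) x₀

/-- GP-HOLR on the natural set -/
def StmHOLRn : Prop := ∀ (k : ℕ) (B : Finset (Fin 6)) (b₀ : C6) (j : Fin 6), k ≤ 1 →
  (∀ l, l ≠ j → b₀ l ≠ b₀ j) → OK B b₀ (b₀ j) → AnalyticAt ℂ (fun b : C6 => P k B b (b j)) b₀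

/-- GP-ROOT on the natural set -/
def StmROOTn : Prop := ∀ (k : ℕ) (B : Finset (Fin 6)) (b₀ : C6) (j : Fin 6), k ≤ 1 →
  (∀ l, l ≠ j → b₀ l ≠ b₀ j) → OK B b₀ (b₀ j) → j ∉ B →
    AnalyticAt ℂ (fun p : C6 × ℂ => Er k j B p.1 p.2) (b₀, 0) ∧
      ∀ᶠ p : C6 × ℂ in 𝓝 (b₀, 0),
        (p.2 ∈ Sl → P k B p.1 (p.1 j + p.2) = P k B p.1 (p.1 j) + rt p.2 * Er k j B p.1 p.2) ∧
          (p.2 ∈ Su → P k (insert j B) p.1 (p.1 j + p.2) =
            P k B p.1 (p.1 j) + ru p.2 * Er k j B p.1 p.2)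

/-- GP-FLIP (right) on the natural set -/
def StmFLIPRn : Prop := ∀ (k : ℕ) (B : Finset (Fin 6)) (b : C6) (x : ℂ) (m : Fin 6), k ≤ 1 →
  SR b x → m ∉ B → OK B b x → OK (insert m B) b x → (b m).re ≤ x.re →
    P k (insert m B) b x = P k B b x

/-- GP-FLIP (left) on the natural set -/
def StmFLIPLn : Prop := ∀ (k : ℕ) (B : Finset (Fin 6)) (b : C6) (x : ℂ) (m : Fin 6), k ≤ 1 →
  SR b x → m ∉ B → OK B b x → OK (insert m B) b x → x.re < (b m).re →
    P k (insert m B) b x + P k B b x = 2 * P k B b (b m)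

theorem StmINVn.inj (h : StmINVn) : StmINV := fun k B b x hk hb => h k B b x hk (SR.of_inj hb x)

theorem StmHOLn.inj (h : StmHOLn) : StmHOL := fun k B b x hk _ hx ho => h k B b x hk hx ho

theorem StmHOLRn.inj (h : StmHOLRn) : StmHOLR := fun k B b j hk hb ho =>
  h k B b j hk (fun _ hl e => hl (hb e)) ho

theorem StmROOTn.inj (h : StmROOTn) : StmROOT := fun k B b j hk hb ho =>
  h k B b j hk (fun _ hl e => hl (hb e)) ho

theorem StmFLIPRn.inj (h : StmFLIPRn) : StmFLIPR := fun k B b x m hk hb =>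
  h k B b x m hk (SR.of_inj hb x)

theorem StmFLIPLn.inj (h : StmFLIPLn) : StmFLIPL := fun k B b x m hk hb =>
  h k B b x m hk (SR.of_inj hb x)

/-- in the flip, the root `m` is automatically simple -/
theorem simple_of_ok {B : Finset (Fin 6)} {b : C6} {x : ℂ} {m : Fin 6} (hm : m ∉ B)
    (h1 : OK B b x) (h2 : OK (insert m B) b x) (hx : x.re < (b m).re) (l : Fin 6) (hl : l ≠ m) :
    b l ≠ b m := by
  intro e
  by_cases hB : l ∈ B
  · have := h1.1 l hB m hm (by rw [e]) (by rw [e]; exact hx)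
    rw [e] at this
    exact lt_irrefl _ this
  · have h3 : l ∉ insert m B := by
      rw [Finset.mem_insert, not_or]; exact ⟨hl, hB⟩
    have := h2.1 m (Finset.mem_insert_self m B) l h3 (by rw [e]) hx
    rw [e] at this
    exact lt_irrefl _ this

/-- `P` along any admissible path -/
theorem P_eq (hI : StmINVn) {k : ℕ} (hk : k ≤ 1) {B : Finset (Fin 6)} {b : C6} {x : ℂ}
    (hs : SR b x) {g : ℝ → ℝ} (hg : Adm B b x g) : P k B b x = PG k B b x g := by
  have h : ∃ g, Adm B b x g := ⟨g, hg⟩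
  unfold P
  rw [dif_pos h]
  exact (hI k B b x hk hs).2 _ _ h.choose_spec hg

end

end Vale.Agent.P273.H595
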