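import Vale.Agent.P273.H595.Nat

/-!
The primitives `P k B` on the natural open sets, over the rows of 857 in their natural form.
-/

open Complex Set Filter Topology MeasureTheory
open scoped ContDiff

namespace Vale.Agent.P273.H595

open H857

noncomputable section

/-- the natural domain of `P k B` (598) -/
def Om (B : Finset (Fin 6)) : Set (C6 × ℂ) := {p | OK B p.1 p.2 ∧ ∀ l, p.1 l ≠ p.2}

/-- the natural domain of the half period that starts at the root `j` -/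
def Oj (B : Finset (Fin 6)) (j : Fin 6) : Set C6 := {b | OK B b (b j) ∧ ∀ l, l ≠ j → b l ≠ b j}

theorem isOpen_Om (hE : StmEX) (hL : StmLOW) (B : Finset (Fin 6)) : IsOpen (Om B) := by
  rw [isOpen_iff_mem_nhds]
  rintro ⟨b₀, x₀⟩ ⟨h1, h2⟩
  obtain ⟨g, hg⟩ := hE B b₀ x₀ h1
  obtain ⟨ε, hε, c, hc, h⟩ := hL B b₀ x₀ g hg h2
  filter_upwards [Metric.ball_mem_nhds (b₀, x₀) hε] with p hp
  rw [Metric.mem_ball, dist_eq_norm] at hp
  have e1 : ‖p.1 - b₀‖ < ε := (norm_fst_le (p - (b₀, x₀))).trans_lt hp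
  have e2 : ‖p.2 - x₀‖ < ε := (norm_snd_le (p - (b₀, x₀))).trans_lt hp
  have := h p.1 p.2 e1 e2
  exact ⟨this.1.ok, this.2.1⟩

theorem isOpen_Oj (hE : StmEX) (hL : StmLOWR) (B : Finset (Fin 6)) (j : Fin 6) :
    IsOpen (Oj B j) := by
  rw [isOpen_iff_mem_nhds]
  rintro b₀ ⟨h1, h2⟩
  obtain ⟨g, hg⟩ := hE B b₀ (b₀ j) h1
  obtain ⟨ε, hε, c, hc, h⟩ := hL B b₀ j g hg h2
  filter_upwards [Metric.ball_mem_nhds b₀ hε] with b hb
  rw [Metric.mem_ball, dist_eq_norm] at hb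
  have := h b hb
  exact ⟨this.1.ok, this.2.1⟩

theorem analyticOnNhd_P (h : StmHOLn) {k : ℕ} (hk : k ≤ 1) (B : Finset (Fin 6)) :
    AnalyticOnNhd ℂ (fun p : C6 × ℂ => P k B p.1 p.2) (Om B) := fun p hp =>
  (h k B p.1 p.2 hk hp.2 hp.1).1

theorem differentiableOn_P (h : StmHOLn) {k : ℕ} (hk : k ≤ 1) (B : Finset (Fin 6)) :
    DifferentiableOn ℂ (fun p : C6 × ℂ => P k B p.1 p.2) (Om B) :=
  (analyticOnNhd_P h hk B).differentiableOn

theorem contDiffAt_P (h : StmHOLn) {k : ℕ} (hk : k ≤ 1) {B : Finset (Fin 6)} {b : C6} {x : ℂ}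
    (hp : (b, x) ∈ Om B) {n : WithTop ℕ∞} :
    ContDiffAt ℝ n (fun p : C6 × ℂ => P k B p.1 p.2) (b, x) :=
  ((h k B b x hk hp.2 hp.1).1.contDiffAt).restrict_scalars ℝ

theorem contDiffOn_P (h : StmHOLn) {k : ℕ} (hk : k ≤ 1) (B : Finset (Fin 6))
    {n : WithTop ℕ∞} : ContDiffOn ℝ n (fun p : C6 × ℂ => P k B p.1 p.2) (Om B) := fun _ hp =>
  (contDiffAt_P h hk hp).contDiffWithinAt

theorem hasDerivAt_P (h : StmHOLn) {k : ℕ} (hk : k ≤ 1) {B : Finset (Fin 6)} {b : C6} {x : ℂ}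
    (hp : (b, x) ∈ Om B) : HasDerivAt (P k B b) (x ^ k / sq B b x) x :=
  (h k B b x hk hp.2 hp.1).2

theorem analyticOnNhd_Pj (h : StmHOLRn) {k : ℕ} (hk : k ≤ 1) (B : Finset (Fin 6)) (j : Fin 6) :
    AnalyticOnNhd ℂ (fun b : C6 => P k B b (b j)) (Oj B j) := fun b hb =>
  h k B b j hk hb.2 hb.1

theorem differentiableOn_Pj (h : StmHOLRn) {k : ℕ} (hk : k ≤ 1) (B : Finset (Fin 6))
    (j : Fin 6) : DifferentiableOn ℂ (fun b : C6 => P k B b (b j)) (Oj B j) :=
  (analyticOnNhd_Pj h hk B j).differentiableOn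

theorem differentiableOn_piX (h : StmHOLRn) {k : ℕ} (hk : k ≤ 1) (j : Fin 6) :
    DifferentiableOn ℂ (piX k j) (Oj (lo j) j) := differentiableOn_Pj h hk (lo j) j

theorem contDiffAt_piX (h : StmHOLRn) {k : ℕ} (hk : k ≤ 1) {j : Fin 6} {b : C6}
    (hb : b ∈ Oj (lo j) j) {n : WithTop ℕ∞} : ContDiffAt ℝ n (piX k j) b :=
  ((h k (lo j) b j hk hb.2 hb.1).contDiffAt).restrict_scalars ℝ

theorem injective_of_XX {b : C6} (hb : b ∈ XX) : Function.Injective b := by
  intro i j h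
  by_contra hij
  rcases lt_or_gt_of_ne hij with h1 | h1
  · have := hb i j h1 (by rw [h])
    rw [h] at this
    exact lt_irrefl _ this
  · have := hb j i h1 (by rw [h])
    rw [h] at this
    exact lt_irrefl _ this

theorem mem_lo {j l : Fin 6} : l ∈ lo j ↔ l < j := by simp [lo]

theorem ok_lo {b : C6} (hb : b ∈ XX) (j : Fin 6) : OK (lo j) b (b j) := by
  refine ⟨fun l hl m hm e _ => ?_, fun l hl e => ⟨fun h => ?_, fun h => ?_⟩⟩
  · rw [mem_lo] at hl hm
    exact hb l m (lt_of_lt_of_le hl (not_lt.1 hm)) e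
  · rw [mem_lo] at h
    exact hb l j h e
  · rw [mem_lo] at h
    have h1 : j ≠ l := fun e' => hl (by rw [e'])
    exact hb j l (lt_of_le_of_ne (not_lt.1 h) h1) e.symm

theorem XX_subset_Oj (j : Fin 6) : XX ⊆ Oj (lo j) j := fun _ hb =>
  ⟨ok_lo hb j, fun _ hl e => hl (injective_of_XX hb e)⟩

/-- for `b` in `XX` and `x` not a root the standard side set is admissible -/
theorem ok_TA {b : C6} {x : ℂ} (hx : ∀ l, b l ≠ x)
    (h : ∀ l m, (b l).re = x.re → x.im < (b l).im → (b m).re = (b l).re → x.re < (b l).re → False) :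
    OK (TA b x) b x := by
  have mem : ∀ l, l ∈ TA b x ↔ (b l).re = x.re ∧ x.im < (b l).im := fun l => by
    unfold TA; simp
  refine ⟨fun l hl m hm e1 e2 => ?_, fun l hl e => ⟨fun h1 => ((mem l).1 h1).2, fun h1 => ?_⟩⟩
  · exact (h l m ((mem l).1 hl).1 ((mem l).1 hl).2 e1.symm e2).elim
  · rcases lt_trichotomy (b l).im x.im with h2 | h2 | h2
    · exact h2
    · exact absurd (Complex.ext e h2) (hx l)
    · exact absurd ((mem l).2 ⟨e, h2⟩) h1

theorem ok_TA' {b : C6} {x : ℂ} (hx : ∀ l, b l ≠ x) : OK (TA b x) b x :=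
  ok_TA hx fun l m h1 _ _ h2 => by rw [h1] at h2; exact lt_irrefl _ h2

/-! ### relabelling -/

section Perm

variable (σ : Equiv.Perm (Fin 6))

theorem adm_perm (B : Finset (Fin 6)) (b : C6) (x : ℂ) (g : ℝ → ℝ) :
    Adm (B.map σ.toEmbedding) (b ∘ σ.symm) x g ↔ Adm B b x g := by
  unfold Adm
  refine and_congr_right fun _ => ?_
  constructor
  · intro h l hl hr
    have h1 := h (σ l) (by simpa using hl) (by simpa using hr)
    simp only [Function.comp_apply, Equiv.symm_apply_apply, Finset.mem_map_equiv] at h1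
    exact h1
  · intro h l hl hr
    have h1 := h (σ.symm l) hl hr
    simp only [Function.comp_apply, Finset.mem_map_equiv]
    exact h1

theorem ok_perm (B : Finset (Fin 6)) (b : C6) (x : ℂ) :
    OK (B.map σ.toEmbedding) (b ∘ σ.symm) x ↔ OK B b x := by
  unfold OK
  constructor
  · rintro ⟨h1, h2⟩
    refine ⟨fun l hl m hm e1 e2 => ?_, fun l hl e => ?_⟩
    · have := h1 (σ l) (by simpa using hl) (σ m) (by simpa using hm) (by simpa using e1)
        (by simpa using e2)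
      simpa using this
    · have := h2 (σ l) (by simpa using hl) (by simpa using e)
      simpa using this
  · rintro ⟨h1, h2⟩
    refine ⟨fun l hl m hm e1 e2 => ?_, fun l hl e => ?_⟩
    · rw [Finset.mem_map_equiv] at hl hm
      exact h1 _ hl _ hm e1 e2
    · have := h2 (σ.symm l) hl e
      simp only [Finset.mem_map_equiv]
      exact this

theorem br_perm (B : Finset (Fin 6)) (l : Fin 6) (z : ℂ) :
    br (B.map σ.toEmbedding) (σ l) z = br B l z := by
  unfold br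
  simp

theorem sq_perm (B : Finset (Fin 6)) (b : C6) (z : ℂ) :
    H857.sq (B.map σ.toEmbedding) (b ∘ σ.symm) z = H857.sq B b z := by
  unfold H857.sq
  rw [← Equiv.prod_comp σ]
  refine Finset.prod_congr rfl fun l _ => ?_
  rw [br_perm]
  simp

theorem PG_perm (k : ℕ) (B : Finset (Fin 6)) (b : C6) (x : ℂ) (g : ℝ → ℝ) :
    PG k (B.map σ.toEmbedding) (b ∘ σ.symm) x g = PG k B b x g := by
  unfold PG igd
  simp only [sq_perm]

/-- **relabelling** -/
theorem P_perm (k : ℕ) (B : Finset (Fin 6)) (b : C6) (x : ℂ) :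
    P k (B.map σ.toEmbedding) (b ∘ σ.symm) x = P k B b x := by
  have e : Adm (B.map σ.toEmbedding) (b ∘ σ.symm) x = Adm B b x :=
    funext fun g => propext (adm_perm σ B b x g)
  unfold P
  simp only [PG_perm]
  by_cases h : ∃ g, Adm B b x g
  · have h' : ∃ g, Adm (B.map σ.toEmbedding) (b ∘ σ.symm) x g := by rw [e]; exact h
    rw [dif_pos h, dif_pos h']
    have : h'.choose = h.choose := by
      congr 1
    rw [this]
  · have h' : ¬ ∃ g, Adm (B.map σ.toEmbedding) (b ∘ σ.symm) x g := by rw [e]; exact h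
    rw [dif_neg h, dif_neg h']

theorem piX_perm (k : ℕ) (j : Fin 6) (hj : σ j = j) (hlo : (lo j).map σ.toEmbedding = lo j)
    (b : C6) : piX k j (b ∘ σ.symm) = piX k j b := by
  unfold piX
  have h1 : (b ∘ σ.symm) j = b j := by
    rw [Function.comp_apply, show σ.symm j = j from by rw [Equiv.symm_apply_eq, hj]]
  rw [h1]
  nth_rewrite 1 [← hlo]
  exact P_perm σ k (lo j) b (b j)

end Perm

/-- `piX` does not change when two neighbouring labels different from `j` are exchanged -/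
theorem piX_swap (k : ℕ) (j : Fin 6) (i : Fin 5) (h1 : i.castSucc ≠ j) (h2 : i.succ ≠ j) (b : C6) :
    piX k j (b ∘ Equiv.swap i.castSucc i.succ) = piX k j b := by
  have h := piX_perm (Equiv.swap i.castSucc i.succ) k j
    (Equiv.swap_apply_of_ne_of_ne h1.symm h2.symm) ?_ b
  · rwa [Equiv.symm_swap] at h
  · revert h1 h2; revert i j
    decide

theorem tendsto_rt_zero : Tendsto rt (𝓝 0) (𝓝 0) := by
  rw [tendsto_zero_iff_norm_tendsto_zero]
  have : (fun z => ‖rt z‖) = fun z => Real.sqrt ‖z‖ := funext norm_rt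
  rw [this]
  have h : Tendsto (fun z : ℂ => Real.sqrt ‖z‖) (𝓝 0) (𝓝 (Real.sqrt ‖(0 : ℂ)‖)) :=
    (Real.continuous_sqrt.comp continuous_norm).tendsto 0
  simpa using h

theorem tendsto_ru_zero : Tendsto ru (𝓝 0) (𝓝 0) := by
  rw [tendsto_zero_iff_norm_tendsto_zero]
  have : (fun z => ‖ru z‖) = fun z => Real.sqrt ‖z‖ := funext norm_ru
  rw [this]
  have h : Tendsto (fun z : ℂ => Real.sqrt ‖z‖) (𝓝 0) (𝓝 (Real.sqrt ‖(0 : ℂ)‖)) :=
    (Real.continuous_sqrt.comp continuous_norm).tendsto 0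
  simpa using h

theorem tendsto_sub_self (c : ℂ) : Tendsto (fun x : ℂ => x - c) (𝓝 c) (𝓝 0) := by
  have h : Tendsto (fun x : ℂ => x - c) (𝓝 c) (𝓝 (c - c)) :=
    (by fun_prop : Continuous fun x : ℂ => x - c).tendsto c
  rwa [sub_self] at h

/-- limit of `Q` at `c` if `Q (c + w) = Q₀ + r w * E b w` -/
theorem tendsto_of_struct {E : C6 → ℂ → ℂ} {r : ℂ → ℂ} {Q : C6 → ℂ → ℂ} {Q₀ : C6 → ℂ} {b : C6}
    {j : Fin 6} {S : Set ℂ} (hE : ContinuousAt (fun p : C6 × ℂ => E p.1 p.2) (b, 0))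
    (hr : Tendsto r (𝓝 0) (𝓝 0))
    (h : ∀ᶠ p : C6 × ℂ in 𝓝 (b, 0), p.2 ∈ S → Q p.1 (p.1 j + p.2) = Q₀ p.1 + r p.2 * E p.1 p.2) :
    Tendsto (Q b) (𝓝[{x | x - b j ∈ S}] (b j)) (𝓝 (Q₀ b)) := by
  have e1 : Tendsto (fun x : ℂ => ((b, x - b j) : C6 × ℂ)) (𝓝 (b j)) (𝓝 (b, 0)) :=
    tendsto_const_nhds.prodMk_nhds (tendsto_sub_self (b j))
  have e3 : Tendsto (fun x : ℂ => E b (x - b j)) (𝓝 (b j)) (𝓝 (E b 0)) :=
    Tendsto.comp (g := fun p : C6 × ℂ => E p.1 p.2) hE e1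
  have e2 : Tendsto (fun x : ℂ => Q₀ b + r (x - b j) * E b (x - b j)) (𝓝 (b j))
      (𝓝 (Q₀ b + 0 * E b 0)) :=
    tendsto_const_nhds.add ((hr.comp (tendsto_sub_self (b j))).mul e3)
  rw [zero_mul, add_zero] at e2
  refine (e2.mono_left nhdsWithin_le_nhds).congr' ?_
  have e4 := e1.eventually h
  filter_upwards [mem_nhdsWithin_of_mem_nhds e4, self_mem_nhdsWithin] with x hx hx2
  have h5 : Q b (b j + (x - b j)) = Q₀ b + r (x - b j) * E b (x - b j) := hx hx2
  rw [← h5]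
  congr 1
  ring

/-- (I2) the value at a root is the limit, from the domain of `rt` -/
theorem tendsto_root (hR : StmROOTn) {k : ℕ} (hk : k ≤ 1) {B : Finset (Fin 6)} {b : C6}
    {j : Fin 6} (hj : j ∉ B) (hs : ∀ l, l ≠ j → b l ≠ b j) (ho : OK B b (b j)) :
    Tendsto (P k B b) (𝓝[{x | x - b j ∈ Sl}] (b j)) (𝓝 (P k B b (b j))) := by
  obtain ⟨h1, h2⟩ := hR k B b j hk hs ho hj
  exact tendsto_of_struct (E := fun b w => Er k j B b w) (r := rt) (Q := fun b x => P k B b x)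
    (Q₀ := fun b => P k B b (b j)) h1.continuousAt tendsto_rt_zero (h2.mono fun p hp => hp.1)

/-- the same from below -/
theorem tendsto_root' (hR : StmROOTn) {k : ℕ} (hk : k ≤ 1) {B : Finset (Fin 6)} {b : C6}
    {j : Fin 6} (hj : j ∉ B) (hs : ∀ l, l ≠ j → b l ≠ b j) (ho : OK B b (b j)) :
    Tendsto (P k (insert j B) b) (𝓝[{x | x - b j ∈ Su}] (b j)) (𝓝 (P k B b (b j))) := by
  obtain ⟨h1, h2⟩ := hR k B b j hk hs ho hj
  exact tendsto_of_struct (E := fun b w => Er k j B b w) (r := ru)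
    (Q := fun b x => P k (insert j B) b x) (Q₀ := fun b => P k B b (b j)) h1.continuousAt
    tendsto_ru_zero (h2.mono fun p hp => hp.2)

end

end Vale.Agent.P273.H595
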